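import Vale.Agent.P156.MathlibUsed
import Vale.Agent.P156.Defs
import Vale.Agent.P156.Bdl.B1

open Filter Topology

namespace Vale.Agent.Results.P156.Main

open Vale.Agent.P156

/-- No fixed atoms of the unfolded point process at any bulk energy, an exponentially small
window free of eigenvalues at every algebraic bulk energy, and no nontrivial eigenvalues of bounded
algebraic degree, for random `d`-regular graphs of every fixed degree `d ≥ 3`. -/
theorem result (d : ℕ) (hd : 3 ≤ d) :
    (∀ E : ℝ, |E| < 2 * Real.sqrt (d - 1) →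
      (∀ s : ℝ, Tendsto (fun n : ℕ => unifProb n d (fun G => Xi n d E G {s} ≠ 0))
        (atTop ⊓ 𝓟 {n : ℕ | d < n ∧ Even (n * d)}) (𝓝 0)) ∧
      (IsAlgebraic ℚ E → ∃ c : ℝ, 0 < c ∧
        Tendsto (fun n : ℕ => unifProb n d (fun G => Xi n d E G (Set.Icc (-c ^ n) (c ^ n)) ≠ 0))
          (atTop ⊓ 𝓟 {n : ℕ | d < n ∧ Even (n * d)}) (𝓝 0))) ∧
    (∀ K : ℕ, Tendsto (fun n : ℕ => unifProb n d
        (fun G => ∃ i, eig G i ≠ d ∧ (minpoly ℚ (eig G i)).natDegree ≤ K))
      (atTop ⊓ 𝓟 {n : ℕ | d < n ∧ Even (n * d)}) (𝓝 0)) := by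
  have lim : ∀ A : (n : ℕ) → SimpleGraph (Fin n) → Prop,
      (∀ ε > 0, ∃ n0 : ℕ, ∀ n ≥ n0, Even (n * d) → unifProb n d (A n) ≤ ε) →
      Tendsto (fun n : ℕ => unifProb n d (A n))
        (atTop ⊓ 𝓟 {n : ℕ | d < n ∧ Even (n * d)}) (𝓝 0) := by
    intro A hA
    rw [Metric.tendsto_nhds]
    intro ε hε
    rw [eventually_inf_principal]
    obtain ⟨n0, hn0⟩ := hA (ε / 2) (by linarith)
    filter_upwards [eventually_ge_atTop n0] with n hn
    rintro ⟨_, hev⟩
    rw [Real.dist_eq, sub_zero, abs_of_nonneg (unifProb_nonneg n d _)]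
    exact lt_of_le_of_lt (hn0 n hn hev) (by linarith)
  refine ⟨fun E hE => ⟨fun s => lim _ (fun ε hε => ?_), fun hA => ?_⟩,
    fun K => lim _ (low_degree_prob d hd K)⟩
  · have hρ := rho_pos hd hE
    have key : ∀ n : ℕ, 0 < n → ∀ G : SimpleGraph (Fin n), Xi n d E G {s} ≠ 0 →
        IsEig G (E + (s / rho d E) / n) := by
      intro n hn G h
      rw [Xi_ne_zero_iff n d E G (MeasurableSet.singleton s)] at h
      obtain ⟨i, hi⟩ := h
      rw [Set.mem_singleton_iff] at hi
      have hnR : (0 : ℝ) < n := by exact_mod_cast hn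
      have : eig G i = E + (s / rho d E) / n := by
        field_simp
        linarith
      rw [← this]
      exact isEig_eig G i
    by_cases hs : s = 0
    · obtain ⟨n0, hn0⟩ := spec_prob d hd E (bulk_ne hd hE) ε hε
      refine ⟨n0 + 1, fun n hn hev => le_trans (unifProb_mono n d (fun G _ h => ?_))
        (hn0 n (by omega) hev)⟩
      have := key n (by omega) G h
      rw [hs] at this
      simpa using this
    · obtain ⟨n0, hn0⟩ := eventually_not_eig d E (s / rho d E) (div_ne_zero hs hρ.ne')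
      refine ⟨n0 + 1, fun n hn _ => ?_⟩
      rw [unifProb_eq_zero n d
        (fun G hG h => hn0 n (by omega) G hG (key n (by omega) G h))]
      exact hε.le
  · obtain ⟨c, hc, h⟩ := window_prob d hd E hE hA
    exact ⟨c, hc, lim _ h⟩

end Vale.Agent.Results.P156.Main
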